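import Vale.Agent.N160.Main

open MeasureTheory Filter Topology Vale.Agent.P160R Vale.Agent.N160

/-- **P160.** For random symmetric sign matrices `A n` on arbitrary probability spaces: the
probability of a kernel vector that takes at most `|S| / 100` values on some set `S` of at least
`η n` coordinates is `(1 + o(1)) n² 2⁻ⁿ`; together with the absence of two equal or opposite rows
it is `(3 / 8 + o(1)) ^ n`. -/
theorem Vale.Agent.Results.P160.A0Structured.result
    (Ω : ℕ → Type*) [∀ n, MeasurableSpace (Ω n)] (P : ∀ n, Measure (Ω n))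
    (A : ∀ n, Ω n → Matrix (Fin n) (Fin n) ℝ) (hA : ∀ n, IsSignMatrix (P n) (A n))
    (η : ℝ) (h0 : 0 < η) (h1 : η < 1) :
    (∀ n : ℕ, NullMeasurableSet {ω | Structured (η * n) (A n ω)} (P n) ∧
      NullMeasurableSet {ω | Structured (η * n) (A n ω) ∧ ¬ Twins (A n ω)} (P n)) ∧
    Tendsto (fun n : ℕ => (P n).real {ω | Structured (η * n) (A n ω)} / ((n : ℝ) ^ 2 / 2 ^ n))
      atTop (𝓝 1) ∧
    Tendsto (fun n : ℕ => (P n).real {ω | Structured (η * n) (A n ω) ∧ ¬ Twins (A n ω)} ^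
      (1 / (n : ℝ))) atTop (𝓝 (3 / 8)) :=
  ⟨fun n => ⟨(main.2 Ω P A hA).1 n {B | Structured (η * n) B},
    (main.2 Ω P A hA).1 n {B | Structured (η * n) B ∧ ¬ Twins B}⟩, (main.2 Ω P A hA).2.2 η h0 h1⟩
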